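import Vale.Agent.P011UR.Nrm
import Vale.Agent.P011LA.Tor
import Mathlib.Tactic.NoncommRing
import Mathlib.Tactic.IntervalCases

/-!
Recognition of the group generated by the root elements of a minuscule module.
-/

set_option autoImplicit false
set_option linter.all false

namespace Vale.Agent.P011UR

open Matrix Vale.Agent.P011L Vale.Agent.P183CH Vale.Agent.P011U Vale.Agent.P011UH
  Vale.Agent.P011LA

variable {K I J : Type} [Field K] [Fintype I] [DecidableEq I] [Fintype J] [DecidableEq J]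
  {A : Matrix I I ℤ} {e f : I → Matrix J J ℤ} {μ : I → J → ℤ}

variable (K) in
/-- integer matrices over the field -/
abbrev ct (M : Matrix J J ℤ) : Matrix J J K := M.map (Int.cast : ℤ → K)

theorem ct_mul (M N : Matrix J J ℤ) : ct K (M * N) = ct K M * ct K N :=
  Matrix.map_mul (f := Int.castRingHom K)

theorem ct_sq {M : Matrix J J ℤ} (h : M * M = 0) : ct K M * ct K M = 0 := by
  rw [← ct_mul, h]
  exact Matrix.map_zero _ Int.cast_zero

theorem ct_ne {M : Matrix J J ℤ} {a b : J} (h : ct K M a b ≠ 0) : M a b ≠ 0 := fun e =>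
  h (by rw [ct, map_apply, e, Int.cast_zero])

theorem one_mul_one {Y : Matrix J J K} (h : Y * Y = 0) (s : K) :
    (1 + s • Y) * (1 + (-s) • Y) = 1 := by
  rw [add_mul, mul_add, mul_add, one_mul, one_mul, mul_one, smul_mul_smul_comm, h, smul_zero,
    add_zero, neg_smul, neg_add_cancel_right]

theorem on_e (h : Min A e f μ) (i : I) : On (gen K e f) (ct K (e i)) :=
  ⟨ct_sq (h.ee i), fun s => ⟨⟨_, _, one_mul_one (ct_sq (h.ee i)) s,
    mul_eq_one_comm.1 (one_mul_one (ct_sq (h.ee i)) s)⟩, Subgroup.subset_closure ⟨i, s, .inl rfl⟩, rfl⟩⟩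

theorem on_f (h : Min A e f μ) (i : I) : On (gen K e f) (ct K (f i)) :=
  ⟨ct_sq (h.ff i), fun s => ⟨⟨_, _, one_mul_one (ct_sq (h.ff i)) s,
    mul_eq_one_comm.1 (one_mul_one (ct_sq (h.ff i)) s)⟩, Subgroup.subset_closure ⟨i, s, .inr rfl⟩, rfl⟩⟩

theorem ct_ef (h : Min A e f μ) (i : I) :
    ct K (e i) * ct K (f i) - ct K (f i) * ct K (e i) = diagonal fun a => (μ i a : K) := by
  rw [← ct_mul, ← ct_mul, ← diagonal_map Int.cast_zero, ← h.ef]
  exact (Matrix.map_sub _ Int.cast_sub _ _).symm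

theorem dg_mul {d : J → K} {c : K} {Y : Matrix J J K} (h : ∀ a b, Y a b ≠ 0 → d a = c * d b) :
    diagonal d * Y = c • (Y * diagonal d) := by
  ext a b
  rw [diagonal_mul, Matrix.smul_apply, mul_diagonal, smul_eq_mul]
  by_cases e : Y a b = 0
  · simp [e]
  · rw [h a b e]; ring

theorem dg_br {d : J → K} {c : K} {Y : Matrix J J K} (h : ∀ a b, Y a b ≠ 0 → d a = d b + c) :
    diagonal d * Y - Y * diagonal d = c • Y := by
  ext a b
  rw [Matrix.sub_apply, diagonal_mul, Matrix.smul_apply, mul_diagonal, smul_eq_mul]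
  by_cases e : Y a b = 0
  · simp [e]
  · rw [h a b e]; ring

variable [CharZero K]

theorem tor1 (h : Min A e f μ) (h2 : ∀ i, A i i = 2) (h1 : ∀ i a, -1 ≤ μ i a ∧ μ i a ≤ 1) (i : I)
    (t : Kˣ) : ∃ g ∈ gen K e f, g.1 = diagonal fun a => (t : K) ^ μ i a := by
  have a1 := (on_e (K := K) h i).1
  have a2 := (on_f (K := K) h i).1
  have a3 := ct_ef (K := K) h i
  have a4 := dg_br (d := fun a => (μ i a : K)) (c := 2) (Y := ct K (e i)) fun a b x => by
    rw [h.he i a b (ct_ne x), h2, Int.cast_add, Int.cast_ofNat]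
  have a5 := dg_br (d := fun a => (μ i a : K)) (c := -2) (Y := ct K (f i)) fun a b x => by
    rw [h.hf i a b (ct_ne x), h2, Int.cast_sub, Int.cast_ofNat, sub_eq_add_neg]
  obtain ⟨x1, b1, c1⟩ := (on_e (K := K) h i).2 t
  obtain ⟨x2, b2, c2⟩ := (on_f (K := K) h i).2 (-(t : K)⁻¹)
  obtain ⟨x3, b3, c3⟩ := (on_e (K := K) h i).2 (-1)
  obtain ⟨x4, b4, c4⟩ := (on_f (K := K) h i).2 1
  refine ⟨x1 * x2 * x1 * (x3 * x4 * x3), mul_mem (mul_mem (mul_mem b1 b2) b1)
    (mul_mem (mul_mem b3 b4) b3), ?_⟩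
  simp only [Units.val_mul, c1, c2, c3, c4]
  rw [← a3] at a4 a5
  generalize ct K (e i) = p, ct K (f i) = q at a1 a2 a3 a4 a5
  have d1 : ∀ z, p * (p * z) = 0 := fun z => by rw [← mul_assoc, a1, zero_mul]
  have d2 : ∀ z, q * (q * z) = 0 := fun z => by rw [← mul_assoc, a2, zero_mul]
  have d3 : p * (q * p) = p := smul_right_injective _ (two_ne_zero (α := K)) (by
    simp only [sub_mul, mul_sub, mul_assoc, a1, d1, mul_zero, sub_zero, zero_sub, sub_neg_eq_add] at a4
    simpa only [two_smul] using a4.trans (two_smul ..))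
  have d4 : q * (p * q) = q := smul_right_injective _ (two_ne_zero (α := K)) (by
    simp only [sub_mul, mul_sub, mul_assoc, a2, d2, mul_zero, sub_zero, zero_sub, neg_smul] at a5
    simpa only [two_smul] using (neg_inj.1 (((neg_add _ _).trans (sub_eq_add_neg _ _).symm).trans
      a5)).trans (two_smul ..))
  have d5 : ∀ z, p * (q * (p * z)) = p * z := fun z => by rw [← mul_assoc q, ← mul_assoc, d3]
  have d6 : ∀ z, q * (p * (q * z)) = q * z := fun z => by rw [← mul_assoc p, ← mul_assoc, d4]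
  have d7 : p * q + q * p = diagonal fun a => (μ i a : K) * μ i a := by
    rw [← diagonal_mul_diagonal, ← a3]
    simp only [sub_mul, mul_sub, mul_assoc, d1, d2, d5, d6, mul_zero, sub_zero, zero_sub,
      sub_neg_eq_add]
  have n : ∀ s u : K, s * u = 1 → (1 + s • p) * (1 + -u • q) * (1 + s • p) =
      1 - (p * q + q * p) + s • p - u • q := fun s u x => by
    simp only [add_mul, mul_add, one_mul, mul_one, smul_mul_assoc, mul_smul_comm, smul_add, smul_smul,
      mul_assoc, a1, d3, smul_zero, neg_mul, mul_neg, x, mul_comm u s, ← mul_assoc s]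
    module
  have n2 := n (-1) (-1) (by simp)
  rw [neg_neg] at n2
  have d8 : (1 - (p * q + q * p) + (t : K) • p - (t : K)⁻¹ • q) *
      (1 - (p * q + q * p) + (-1 : K) • p - (-1 : K) • q) =
      1 - (p * q + q * p) + ((t : K) / 2) • ((p * q + q * p) + (p * q - q * p)) +
        ((t : K)⁻¹ / 2) • ((p * q + q * p) - (p * q - q * p)) := by
    simp only [add_mul, mul_add, sub_mul, mul_sub, one_mul, mul_one, smul_mul_assoc, mul_smul_comm,
      mul_assoc, a1, a2, d1, d2, d3, d4, d5, d6, mul_zero]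
    module
  rw [n _ _ (mul_inv_cancel₀ t.ne_zero), n2, d8, d7, a3]
  ext a b
  by_cases x : a = b
  · subst x
    simp only [Matrix.add_apply, Matrix.sub_apply, Matrix.smul_apply, diagonal_apply_eq,
      one_apply_eq, smul_eq_mul]
    obtain ⟨y, z⟩ := h1 i a
    generalize μ i a = m at y z
    interval_cases m <;> simp <;> ring
  · simp [x]

theorem tor (h : Min A e f μ) (h2 : ∀ i, A i i = 2) (h1 : ∀ i a, -1 ≤ μ i a ∧ μ i a ≤ 1)
    (t : I → Kˣ) : ∃ g ∈ gen K e f, g.1 = diagonal fun a => ch (fun i => μ i a) t := by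
  simp only [ch_apply]
  induction (Finset.univ : Finset I) using Finset.induction_on with
  | empty => exact ⟨1, one_mem _, by simp⟩
  | insert i S hi ih =>
    obtain ⟨x, a, b⟩ := ih
    obtain ⟨y, c, d⟩ := tor1 h h2 h1 i (t i)
    exact ⟨y * x, mul_mem c a, by
      simp only [Units.val_mul, b, d, diagonal_mul_diagonal, Finset.prod_insert hi]⟩

omit [CharZero K] in
theorem exists_t [IsAlgClosed K] {B : Matrix I I ℤ} {m : ℕ} (h0 : 0 < m)
    (hB : ∀ i j, ∑ r, B r j * A i r = if j = i then (m : ℤ) else 0) (c : I → Kˣ) :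
    ∃ t : I → Kˣ, ∀ i, ch (A i) t = (c i : K) := by
  choose d hd using fun i => IsAlgClosed.exists_pow_nat_eq (c i : K) h0
  have d0 : ∀ i, d i ≠ 0 := fun i x => (c i).ne_zero (by rw [← hd, x, zero_pow h0.ne'])
  have z : ∀ (j : I) (y : I → ℤ), ∏ r, d j ^ y r = d j ^ ∑ r, y r := fun j y => by
    induction (Finset.univ : Finset I) using Finset.induction_on with
    | empty => simp
    | insert i S hi ih => rw [Finset.prod_insert hi, Finset.sum_insert hi, ih, zpow_add₀ (d0 j)]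
  refine ⟨fun r => ∏ j, Units.mk0 _ (d0 j) ^ B r j, fun i => ?_⟩
  simp only [ch_apply, Units.coe_prod, Units.val_zpow_eq_zpow_val, Units.val_mk0,
    ← Finset.prod_zpow, ← zpow_mul]
  rw [Finset.prod_comm]
  simp only [z, hB]
  rw [Finset.prod_eq_single i (fun j _ x => by rw [if_neg x, zpow_zero]) (by simp), if_pos rfl,
    zpow_natCast, hd]

/-- Recognition of a group `G` which normalises the Lie algebra. -/
theorem rec_gen [IsAlgClosed K] (hc : CL) (hr : REC) (ha : AUT) {D : Chev} (hD : SC D)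
    (ε : Fin D.r ≃ I) (hA : ∀ i j, A (ε i) (ε j) = D.A i j) (h : Min A e f μ) (h2 : ∀ i, A i i = 2)
    (h1 : ∀ i a, -1 ≤ μ i a ∧ μ i a ≤ 1) {B : Matrix I I ℤ} {m : ℕ} (h0 : 0 < m)
    (hB : ∀ i j, ∑ r, B r j * A i r = if j = i then (m : ℤ) else 0) {G : Subgroup (GL J K)}
    (g1 : gen K e f ≤ G) (g2 : ∀ s ∈ G, ∀ i, s.1 * ct K (e i) * (s⁻¹).1 ∈ tan (gen K e f) ∧
      s.1 * ct K (f i) * (s⁻¹).1 ∈ tan (gen K e f))
    (g3 : ∀ s ∈ G, ∀ π : Equiv.Perm I, (∀ i j, A (π i) (π j) = A i j) →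
      (∀ a b, s.1 a b ≠ 0 → ∀ i, μ (π i) a = μ i b) → ∀ i, π i = i)
    (g4 : ∀ s ∈ G, (∀ i, s.1 * ct K (e i) = ct K (e i) * s.1) →
      (∀ i, s.1 * ct K (f i) = ct K (f i) * s.1) →
      ∃ t, s.1 = diagonal fun a => ch (fun i => μ i a) t) :
    ∃ ψ : D.grp K ≃* G, Iso ψ ∧ ∀ (σ : K →+* K) (g : D.grp K),
      (ψ (fm D σ g)).1.1 = (ψ g).1.1.map σ := by
  obtain ⟨ψ, p, q⟩ := hr D hD I J A e f μ ε hA h K
  have hx : ∀ i t, (ψ ((GG D K).x (D.α i) t)).1.1 = 1 + t • ct K (e (ε i)) := fun i t =>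
    (q _ i t).1 (congrArg Units.val (GG_e i t))
  have hy : ∀ i t, (ψ ((GG D K).x (-D.α i) t)).1.1 = 1 + t • ct K (f (ε i)) := fun i t =>
    (q _ i t).2 (congrArg Units.val (GG_f i t))
  obtain rfl : gen K e f = G := le_antisymm g1 fun g hg => by
    obtain ⟨x, a, c, π, d, b⟩ := nrm hc ha hD ψ p.pol p.pol' hx hy (fun i => ct_sq (h.ee _))
      (fun i => ct_sq (h.ff _)) (fun s hs i => g2 s hs (ε i)) hg
    have hs := mul_mem (inv_mem (g1 a)) hg
    rw [← mul_inv_cancel_left x g]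
    refine mul_mem a ?_
    generalize x⁻¹ * g = s at b hs
    have e1 : ∀ i, π i = i := fun i => ε.injective (by
      have := g3 s hs (ε.permCongr π) (fun i j => by
        rw [Equiv.permCongr_apply, Equiv.permCongr_apply, hA, ← ε.apply_symm_apply i,
          ← ε.apply_symm_apply j, hA, ε.symm_apply_apply, ε.symm_apply_apply]
        exact d _ _) (fun a b' y j => by
          obtain ⟨j, rfl⟩ := ε.surjective j
          have e2 : s.1 * diagonal (fun a => (μ (ε j) a : K)) =
              diagonal (fun a => (μ (ε (π j)) a : K)) * s.1 := by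
            rw [← ct_ef h, ← ct_ef h, mul_sub, sub_mul, ← mul_assoc, ← mul_assoc, (b j).1, (b j).2,
              smul_mul_assoc, smul_mul_assoc, mul_assoc, mul_assoc, (b j).1, (b j).2]
            simp only [mul_smul_comm, smul_smul, Units.mul_inv, Units.inv_mul, one_smul, mul_assoc]
          have e3 := congrFun (congrFun e2 a) b'
          rw [mul_diagonal, diagonal_mul, mul_comm] at e3
          rw [Equiv.permCongr_apply, ε.symm_apply_apply]
          exact Int.cast_injective (mul_right_cancel₀ y e3).symm) (ε i)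
      rwa [Equiv.permCongr_apply, ε.symm_apply_apply] at this)
    obtain ⟨t, ht⟩ := exists_t h0 hB fun i => c (ε.symm i)
    obtain ⟨u, u1, u2⟩ := tor h h2 h1 t
    have k : ∀ (Y : Matrix J J K) (c : K), s.1 * Y = c • (Y * s.1) → u.1 * Y = c • (Y * u.1) →
        (u⁻¹ * s).1 * Y = Y * (u⁻¹ * s).1 := fun Y c y z => by
      rw [Units.val_mul, mul_assoc, y, ← smul_mul_assoc, ← mul_assoc, ← mul_assoc,
        ← Units.mul_inv_cancel_right (c • Y) u, smul_mul_assoc c Y, ← z]
      simp only [← mul_assoc, Units.inv_mul, one_mul]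
    obtain ⟨v, v1⟩ := g4 _ (mul_mem (inv_mem (g1 u1)) hs) (fun i => by
      obtain ⟨i, rfl⟩ := ε.surjective i
      refine k _ _ ((b i).1.trans (by rw [e1])) (u2 ▸ dg_mul fun a b' y => ?_)
      rw [← ε.symm_apply_apply i, ← ht, ← ch_add, add_comm]
      exact congrArg (ch · t) (funext (h.he _ a b' (ct_ne y)))) fun i => by
      obtain ⟨i, rfl⟩ := ε.surjective i
      refine k _ _ ((b i).2.trans (by rw [e1])) (u2 ▸ dg_mul fun a b' y => ?_)
      rw [Units.val_inv_eq_inv_val, ← ε.symm_apply_apply i, ← ht, ← ch_neg,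
        ← ch_add, add_comm, ← sub_eq_add_neg]
      exact congrArg (ch · t) (funext (h.hf _ a b' (ct_ne y)))
    obtain ⟨w, w1, w2⟩ := tor h h2 h1 v
    rw [← mul_inv_cancel_left u s, ← (Units.ext (w2.trans v1.symm) : w = u⁻¹ * s)]
    exact mul_mem u1 w1
  refine ⟨ψ, p, fun σ g => ?_⟩
  have m : ∀ (M : Matrix J J ℤ) (t : K), 1 + σ t • ct K M = (1 + t • ct K M).map σ := fun M t => by
    ext a b
    simp [one_apply, apply_ite σ]
  exact congrArg Units.val (grp_ind (S := (((gen K e f).subtype.comp ψ.toMonoidHom).comp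
    (fm D σ)).eqLocus ((gm σ).comp ((gen K e f).subtype.comp ψ.toMonoidHom)))
    (fun i t => Units.ext (((congrArg (fun z => (ψ z).1.1) (fm_x σ _ t)).trans (hx i _)).trans
      ((m _ t).trans (congrArg (·.map σ) (hx i t).symm))))
    (fun i t => Units.ext (((congrArg (fun z => (ψ z).1.1) (fm_x σ _ t)).trans (hy i _)).trans
      ((m _ t).trans (congrArg (·.map σ) (hy i t).symm)))) g)

end Vale.Agent.P011UR
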