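import Vale.Agent.P011UH.IF
import Vale.Agent.P011U.IF
import Mathlib.Algebra.MvPolynomial.Derivation
import Mathlib.Algebra.MvPolynomial.Monad
import Mathlib.Algebra.Polynomial.Derivative
import Mathlib.Algebra.CharZero.Infinite

/-!
The normaliser of the Lie algebra of a Chevalley group.
-/

set_option autoImplicit false
set_option linter.all false

namespace Vale.Agent.P011UR

open Matrix MvPolynomial Vale.Agent.P011L Vale.Agent.P183CH Vale.Agent.P011U

variable {K J : Type} [Field K] [Fintype J] [DecidableEq J] {E : Subgroup (GL J K)}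
  {Y : Matrix J J K}

theorem pol_trans {m m' : Type} [Fintype m] [DecidableEq m] [Fintype m'] [DecidableEq m']
    {G : Subgroup (GL m K)} {H : Subgroup (GL m' K)} {φ : G ≃* H} {ψ : H ≃* E} (h : Pol φ)
    (h' : Pol ψ) : Pol (φ.trans ψ) := by
  choose p hp using h
  intro i j
  obtain ⟨q, hq⟩ := h' i j
  refine ⟨bind₁ (fun e => p e.1 e.2) q, fun g => ?_⟩
  rw [MulEquiv.trans_apply, hq]
  simp only [hp]
  exact (eval₂Hom_bind₁ _ _ _ _).symm

/-- the left invariant vector fields -/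
noncomputable def dv (Y : Matrix J J K) :
    Derivation K (MvPolynomial (J × J) K) (MvPolynomial (J × J) K) :=
  mkDerivation K fun e => ∑ c, X (e.1, c) * C (Y c e.2)

/-- the restriction to a line -/
noncomputable def cv (g Y : Matrix J J K) : MvPolynomial (J × J) K →ₐ[K] Polynomial K :=
  aeval fun e => Polynomial.C (g e.1 e.2) + Polynomial.X * Polynomial.C ((g * Y) e.1 e.2)

theorem cv_eval (g Y : Matrix J J K) (p : MvPolynomial (J × J) K) (s : K) :
    (cv g Y p).eval s = eval (fun e => (g * (1 + s • Y)) e.1 e.2) p := by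
  induction p using MvPolynomial.induction_on with
  | C a => simp [cv]
  | add p q a b => simp only [map_add, Polynomial.eval_add, a, b]
  | mul_X p e a =>
    rw [map_mul, Polynomial.eval_mul, a, map_mul, eval_X]
    simp [cv, mul_add, mul_comm s]

theorem cv_dv (h : Y * Y = 0) (g : Matrix J J K) (p : MvPolynomial (J × J) K) :
    Polynomial.derivative (cv g Y p) = cv g Y (dv Y p) := by
  induction p using MvPolynomial.induction_on with
  | C a => simp [cv, derivation_C]
  | add p q a b => simp only [map_add, a, b]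
  | mul_X p e a =>
    have h1 : Polynomial.derivative (cv g Y (X e)) = cv g Y (dv Y (X e)) := by
      have h2 : ∑ c, (g * Y) e.1 c * Y c e.2 = 0 := by
        rw [← mul_apply, mul_assoc, h, mul_zero, Matrix.zero_apply]
      simp only [dv, mkDerivation_X, map_sum, map_mul, cv, aeval_X, aeval_C, add_mul,
        Finset.sum_add_distrib, mul_assoc, ← Finset.mul_sum, Polynomial.algebraMap_eq]
      simp only [← Polynomial.C_mul, ← map_sum Polynomial.C, h2, ← mul_apply]
      simp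
    rw [map_mul, Polynomial.derivative_mul, a, h1, Derivation.leibniz, smul_eq_mul, smul_eq_mul,
      map_add, map_mul, map_mul]
    ring

/-- the polynomial vanishes on the group -/
def Vn (E : Subgroup (GL J K)) (p : MvPolynomial (J × J) K) : Prop :=
  ∀ g ∈ E, eval (fun e => g.1 e.1 e.2) p = 0

/-- the group is closed -/
def Cls (E : Subgroup (GL J K)) : Prop :=
  ∀ M : Matrix J J K, (∀ p, Vn E p → eval (fun e => M e.1 e.2) p = 0) → ∃ g ∈ E, g.1 = M

/-- the Lie algebra -/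
def tan (E : Subgroup (GL J K)) : Submodule K (Matrix J J K) where
  carrier := {Y | ∀ p, Vn E p → Vn E (dv Y p)}
  add_mem' := fun {Y Z} a b p h g hg => by
    rw [show dv (Y + Z) = dv Y + dv Z from derivation_ext fun e => by
      simp [dv, mul_add, Finset.sum_add_distrib], Derivation.add_apply, map_add, a p h g hg,
      b p h g hg, add_zero]
  zero_mem' := fun p h g hg => by
    rw [show dv (0 : Matrix J J K) = 0 from derivation_ext fun e => by simp [dv],
      Derivation.zero_apply, map_zero]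
  smul_mem' := fun c Y a p h g hg => by
    rw [show dv (c • Y) = c • dv Y from derivation_ext fun e => by
      simp [dv, Finset.mul_sum, smul_eq_C_mul, mul_left_comm], Derivation.smul_apply,
      smul_eval, a p h g hg, mul_zero]

/-- the one-parameter group lies in the group -/
def On (E : Subgroup (GL J K)) (Y : Matrix J J K) : Prop :=
  Y * Y = 0 ∧ ∀ s : K, ∃ g ∈ E, g.1 = 1 + s • Y

theorem cj_val (x : GL J K) (s : K) :
    x.1 * (1 + s • Y) * (x⁻¹).1 = 1 + s • (x.1 * Y * (x⁻¹).1) := by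
  rw [mul_add, add_mul, mul_one, x.mul_inv, mul_smul_comm, smul_mul_assoc]

theorem cj_sq (x : GL J K) (h : Y * Y = 0) :
    x.1 * Y * (x⁻¹).1 * (x.1 * Y * (x⁻¹).1) = 0 := by
  rw [mul_assoc, ← mul_assoc (x⁻¹).1, ← mul_assoc (x⁻¹).1, x.inv_mul, one_mul, ← mul_assoc,
    mul_assoc _ Y Y, h, mul_zero, zero_mul]

theorem On.cj (h : On E Y) {x : GL J K} (hx : x ∈ E) : On E (x.1 * Y * (x⁻¹).1) :=
  ⟨cj_sq x h.1, fun s => (h.2 s).elim fun g a =>
    ⟨x * g * x⁻¹, mul_mem (mul_mem hx a.1) (inv_mem hx), by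
      rw [Units.val_mul, Units.val_mul, a.2, cj_val]⟩⟩

variable [CharZero K]

theorem On.tan (h : On E Y) : Y ∈ tan E := fun p hp g hg => by
  have h1 : cv g.1 Y p = 0 := Polynomial.funext fun s => by
    obtain ⟨u, a, b⟩ := h.2 s
    rw [cv_eval, ← b, Polynomial.eval_zero]
    exact hp (g * u) (mul_mem hg a)
  have h2 := cv_eval g.1 Y (dv Y p) 0
  rwa [← cv_dv h.1, h1, zero_smul, add_zero, mul_one, map_zero, Polynomial.eval_zero, eq_comm] at h2

theorem on_of (hc : Cls E) (h : Y * Y = 0) (hY : Y ∈ tan E) : On E Y := by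
  have key : ∀ n p, Vn E p → (cv 1 Y p).natDegree < n → cv 1 Y p = 0 := fun n => by
    induction n with
    | zero => exact fun p _ a => absurd a (Nat.not_lt_zero _)
    | succ n ih =>
      intro p hp a
      have h0 : (cv 1 Y p).natDegree = 0 := by
        by_contra e
        have b := Polynomial.natDegree_derivative_lt e
        rw [cv_dv h] at b
        exact e (Polynomial.natDegree_eq_zero_of_derivative_eq_zero
          ((cv_dv h 1 p).trans (ih _ (hY p hp) (by omega))))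
      have h1 := cv_eval 1 Y p 0
      rw [zero_smul, add_zero, mul_one, Polynomial.eq_C_of_natDegree_eq_zero h0,
        Polynomial.eval_C] at h1
      rw [Polynomial.eq_C_of_natDegree_eq_zero h0, h1.trans (hp 1 (one_mem _)), map_zero]
  refine ⟨h, fun s => hc _ fun p hp => ?_⟩
  have := cv_eval 1 Y p s
  rwa [key _ p hp (Nat.lt_succ_self _), one_mul, Polynomial.eval_zero, eq_comm] at this

variable {D : Chev}

theorem cls_of (hc : P011UH.CL) (hD : SC D) (ψ : D.grp K ≃* E) (p1 : Pol ψ) (p2 : Pol ψ.symm) :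
    Cls E := fun M hM => by
  choose r hr using p1
  choose q hq using p2
  have b : ∀ (N : Matrix J J K) (p : MvPolynomial (Fin D.n × Fin D.n) K),
      eval (fun e => N e.1 e.2) (bind₁ (fun e => q e.1 e.2) p) =
        eval (fun e => eval (fun e => N e.1 e.2) (q e.1 e.2)) p :=
    fun N p => eval₂Hom_bind₁ _ _ _ _
  have b' : ∀ (x : E) (p : MvPolynomial (Fin D.n × Fin D.n) K),
      eval (fun e => x.1.1 e.1 e.2) (bind₁ (fun e => q e.1 e.2) p) =
        eval (fun e => (ψ.symm x).1.1 e.1 e.2) p := fun x p => by simp only [b, hq]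
  obtain ⟨g, hg, e⟩ := (hc D hD K K (of fun a c => eval (fun e => M e.1 e.2) (q a c))).1
    fun p hp => by
      have := hM (bind₁ (fun e => q e.1 e.2) p) fun x hx => by
        rw [b' ⟨x, hx⟩, ← coe_aeval_eq_eval]
        exact hp _ (ψ.symm ⟨x, hx⟩).2
      rw [b, ← coe_aeval_eq_eval] at this
      exact this
  refine ⟨(ψ ⟨g, hg⟩).1, (ψ ⟨g, hg⟩).2, Matrix.ext fun a c => ?_⟩
  have := hM (bind₁ (fun e => q e.1 e.2) (r a c) - X (a, c)) fun x hx => by
    rw [map_sub, b' ⟨x, hx⟩, eval_X, ← hr, ψ.apply_symm_apply, sub_self]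
  rw [map_sub, b, eval_X, sub_eq_zero] at this
  rw [hr, ← this]
  simp only [e, of_apply]

omit [CharZero K] in
theorem grp_ind {S : Subgroup (D.grp K)} (h1 : ∀ i t, (GG D K).x (D.α i) t ∈ S)
    (h2 : ∀ i t, (GG D K).x (-D.α i) t ∈ S) (g : D.grp K) : g ∈ S := by
  have : D.grp K ≤ S.map (D.grp K).subtype := (Subgroup.closure_le _).2 (by
    rintro g ⟨i, t, h | h⟩
    · exact ⟨_, h1 i t, (GG_e i t).trans (Units.ext h.symm)⟩
    · exact ⟨_, h2 i t, (GG_f i t).trans (Units.ext h.symm)⟩)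
  obtain ⟨x, a, b⟩ := this g.2
  exact (Subtype.ext b : x = g) ▸ a

omit [CharZero K] in
theorem pol_cj {φ : E ≃* E} (s : GL J K) (h : ∀ x, (φ x).1 = s * x.1 * s⁻¹) : Pol φ := fun a b =>
  ⟨∑ d, (∑ c, C (s.1 a c) * X (c, d)) * C ((s⁻¹).1 d b), fun x => by
    simp [h, mul_apply]⟩

/-- An element which normalises the Lie algebra normalises the group, and the pinning after a
multiplication by an element of the group. -/
theorem nrm (hc : P011UH.CL) (ha : AUT) (hD : SC D) (ψ : D.grp K ≃* E) (p1 : Pol ψ)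
    (p2 : Pol ψ.symm) {e f : Fin D.r → Matrix J J K}
    (hx : ∀ i t, (ψ ((GG D K).x (D.α i) t)).1.1 = 1 + t • e i)
    (hy : ∀ i t, (ψ ((GG D K).x (-D.α i) t)).1.1 = 1 + t • f i)
    (e2 : ∀ i, e i * e i = 0) (f2 : ∀ i, f i * f i = 0) {G : Subgroup (GL J K)}
    (hG : ∀ s ∈ G, ∀ i, s.1 * e i * (s⁻¹).1 ∈ tan E ∧ s.1 * f i * (s⁻¹).1 ∈ tan E) {g : GL J K}
    (hg : g ∈ G) : ∃ x ∈ E, ∃ (c : Fin D.r → Kˣ) (π : Equiv.Perm (Fin D.r)), Dg D.R π ∧ ∀ i,
      (x⁻¹ * g).1 * e i = (c i : K) • (e (π i) * (x⁻¹ * g).1) ∧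
      (x⁻¹ * g).1 * f i = ((c i)⁻¹ : Kˣ).1 • (f (π i) * (x⁻¹ * g).1) := by
  have cl := cls_of hc hD ψ p1 p2
  have n1 : ∀ s ∈ G, ∀ x ∈ E, s * x * s⁻¹ ∈ E := fun s hs x h => by
    have a : ∀ (Y : Matrix J J K) (y : D.grp K) (t : K), Y * Y = 0 → s.1 * Y * (s⁻¹).1 ∈ tan E →
        (ψ y).1.1 = 1 + t • Y → y ∈ (E.comap (MulAut.conj s).toMonoidHom).comap
          (E.subtype.comp ψ.toMonoidHom) := fun Y y t a b c => by
      obtain ⟨u, d, d'⟩ := (on_of cl (cj_sq s a) b).2 t
      rw [← cj_val, ← c] at d'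
      obtain rfl : u = s * (ψ y).1 * s⁻¹ := Units.ext d'
      exact d
    have := grp_ind (fun i t => a _ _ t (e2 i) (hG s hs i).1 (hx i t))
      (fun i t => a _ _ t (f2 i) (hG s hs i).2 (hy i t)) (ψ.symm ⟨x, h⟩)
    rwa [Subgroup.mem_comap, MonoidHom.comp_apply, MulEquiv.coe_toMonoidHom,
      ψ.apply_symm_apply] at this
  let φ : E ≃* E :=
    { toFun := fun x => ⟨g * x * g⁻¹, n1 g hg _ x.2⟩
      invFun := fun x => ⟨g⁻¹ * x * g⁻¹⁻¹, n1 _ (inv_mem hg) _ x.2⟩
      left_inv := fun x => Subtype.ext (by simp [mul_assoc])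
      right_inv := fun x => Subtype.ext (by simp [mul_assoc])
      map_mul' := fun x y => Subtype.ext (by simp [mul_assoc]) }
  obtain ⟨y, c, π, d, h⟩ := ha D hD K (ψ.trans (φ.trans ψ.symm))
    (pol_trans p1 (pol_trans (pol_cj g fun _ => rfl) p2))
    (pol_trans (φ := ψ.trans φ.symm) (ψ := ψ.symm) (pol_trans p1 (pol_cj g⁻¹ fun _ => rfl)) p2)
  have k : ∀ (a b : D.grp K) (Y Z : Matrix J J K) (t : K), ψ.symm (φ (ψ a)) = y * b * y⁻¹ →
      (ψ a).1.1 = 1 + (1 : K) • Y → (ψ b).1.1 = 1 + t • Z →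
      ((ψ y).1⁻¹ * g).1 * Y = t • (Z * ((ψ y).1⁻¹ * g).1) := fun a b Y Z t h1 h2 h3 => by
    have h4 : (ψ y).1⁻¹ * g * (ψ a).1 = (ψ b).1 * ((ψ y).1⁻¹ * g) := by
      have h5 : g * (ψ a).1 * g⁻¹ = (ψ y).1 * (ψ b).1 * (ψ y).1⁻¹ := by
        have := congrArg (fun z => (ψ z).1) h1
        simp only [ψ.apply_symm_apply, map_mul, map_inv, Subgroup.coe_mul, Subgroup.coe_inv] at this
        exact this
      rw [mul_assoc, mul_inv_eq_iff_eq_mul.1 h5]
      group
    have h6 := congrArg Units.val h4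
    rwa [Units.val_mul _ (ψ a).1, Units.val_mul (ψ b).1, h2, h3, one_smul, mul_add, add_mul, mul_one,
      one_mul, add_right_inj, smul_mul_assoc] at h6
  refine ⟨(ψ y).1, (ψ y).2, c, π, d, fun i => ⟨?_, ?_⟩⟩
  · exact k _ _ _ _ _ (h i 1).1 (hx i 1) ((hx _ _).trans (by rw [id, mul_one]))
  · exact k _ _ _ _ _ (h i 1).2 (hy i 1) ((hy _ _).trans (by
      rw [id, mul_one, Units.val_inv_eq_inv_val]))

end Vale.Agent.P011UR
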