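import Vale.Agent.P011UR.Gen
import Vale.Agent.P011LN.Main

/-!
Recognition of the type `D₄`.
-/

set_option autoImplicit false
set_option linter.all false

namespace Vale.Agent.P011UR

open Matrix Vale.Agent.P011L Vale.Agent.P183CH Vale.Agent.P011U Vale.Agent.P011UH
  Vale.Agent.P011LA Vale.Agent.P011LN

theorem ct_inj {J : Type} {M N : Matrix J J ℤ} (h : ct ℚ M = ct ℚ N) : M = N :=
  Matrix.map_injective Int.cast_injective h

theorem col_ne {K J : Type} [Field K] [Fintype J] [DecidableEq J] (s : GL J K) (b : J) :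
    ∃ a, s.1 a b ≠ 0 := by
  by_contra h
  push Not at h
  have := congrFun (congrFun s.inv_mul b) b
  simp [mul_apply, h] at this

theorem span_top {I J : Type} [Fintype I] [DecidableEq I] {v : J → I → ℤ}
    (h : ∀ r, Pi.single r 1 ∈ Submodule.span ℤ (Set.range v)) :
    Submodule.span ℤ (Set.range v) = ⊤ :=
  eq_top_iff.2 ((Pi.basisFun ℤ I).span_eq ▸ Submodule.span_le.2 (by
    rintro _ ⟨r, rfl⟩
    rw [Pi.basisFun_apply]
    exact h r))

/-- the raising operators -/
def eD (r : Fin 4) : Matrix I I ℤ := of fun a b => if a = rf r b then ce r b else 0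

/-- the lowering operators -/
def fD (r : Fin 4) : Matrix I I ℤ := of fun a b => if a = rf r b then cf r b else 0

theorem minD : Min (of al) eD fD fun r p => wt p r where
  ee r := ct_inj ((ct_mul ..).trans ((nl_em r).sq.trans (Matrix.map_zero _ Int.cast_zero).symm))
  ff r := ct_inj ((ct_mul ..).trans ((nl_fm r).sq.trans (Matrix.map_zero _ Int.cast_zero).symm))
  ef r := ct_inj ((Matrix.map_sub _ Int.cast_sub _ _).trans (by
    rw [ct, diagonal_map Int.cast_zero, ← ef_eq]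
    exact congrArg₂ (· - ·) (ct_mul ..) (ct_mul ..)))
  ef' r s h := ct_inj ((ct_mul ..).trans ((em_fm h).trans (ct_mul ..).symm))
  he r a b h := congrFun (sh_em (K := ℚ) r a b (Int.cast_ne_zero.2 h))
  hf r a b h := congrFun (sh_fm (K := ℚ) r a b (Int.cast_ne_zero.2 h))
  sc := span_top fun r => by
    obtain ⟨a, b, e⟩ := (by decide +kernel :
      ∀ r : Fin 4, ∃ a b, ∀ s, (if s = r then 1 else 0) = wt a s + wt b s) r
    rw [show Pi.single r 1 = wt a + wt b from funext fun s => (Pi.single_apply ..).trans (e s)]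
    exact add_mem (Submodule.subset_span ⟨a, rfl⟩) (Submodule.subset_span ⟨b, rfl⟩)

variable {K : Type} [Field K] [CharZero K]

theorem cenD (g : SD K) (he : ∀ r, g.1.1 * P011LN.em r = P011LN.em r * g.1.1)
    (hf : ∀ r, g.1.1 * P011LN.fm r = P011LN.fm r * g.1.1) : ∃ t, g.1.1 = dg t := by
  obtain ⟨c, c3, hc⟩ := commutant (sd_fx g) he hf
  have q := sq_of_inv (hc ▸ sd_inv g) c3
  have t := sd_inv g (ev (1, 0, 2)) (ev (0, 2, 0)) (ev (2, 2, 2))
  simp only [hc, diag_ev, map_smul, LinearMap.smul_apply, smul_eq_mul, tri_eee,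
    show n3 (1, 0, 2) (0, 2, 0) (2, 2, 2) = -1 by decide, show blk (1, 0, 2) = 0 from rfl,
    show blk (0, 2, 0) = 1 from rfl, show blk (2, 2, 2) = 2 from rfl, Int.cast_neg, Int.cast_one] at t
  have e : ∀ j, (∀ k, c k = zs j k) → ∃ t, g.1.1 = dg t := fun j x =>
    ⟨zt K j, by rw [hc, dg_zt]; simp only [x]⟩
  have q2 : c 2 = c 0 * c 1 := by
    have q0 : c 0 * c 0 = 1 := q 0
    have q1 : c 1 * c 1 = 1 := q 1
    linear_combination (-(c 0 * c 1)) * t - (c 2 * c 1 * c 1) * q0 - c 2 * q1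
  rcases mul_self_eq_one_iff.1 (q 0) with x | x <;> rcases mul_self_eq_one_iff.1 (q 1) with y | y <;>
    change c 0 = _ at x <;> change c 1 = _ at y <;> rw [x, y] at q2
  · exact ⟨1, by
      rw [hc, show (fun p => c (blk p)) = fun _ => 1 from funext fun p => by
        generalize blk p = k
        fin_cases k <;> simp [x, y, q2, c3], diagonal_one, dg_one]⟩
  · exact e 0 fun k => by fin_cases k <;> simp [x, y, q2, c3, zs]
  · exact e 1 fun k => by fin_cases k <;> simp [x, y, q2, c3, zs]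
  · exact e 2 fun k => by fin_cases k <;> simp [x, y, q2, c3, zs]

theorem ct_eD (r : Fin 4) : ct K (eD r) = P011LN.em r := rfl

theorem ct_fD (r : Fin 4) : ct K (fD r) = P011LN.fm r := rfl

theorem leD : gen K eD fD ≤ SD K := (Subgroup.closure_le _).2 (by
  rintro g ⟨r, t, h | h⟩
  · obtain rfl : g = (ux (nl_em r) t).1 := Units.ext h
    exact Subtype.prop _
  · obtain rfl : g = (ux (nl_fm r) t).1 := Units.ext h
    exact Subtype.prop _)

theorem tanD {Y : Matrix I I K} (h : Y ∈ LL K) : Y ∈ tan (gen K eD fD) := by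
  have a : L0 ((gen K eD fD).subgroupOf (SD K)) ≤ tan (gen K eD fD) := Submodule.span_le.2 (by
    rintro _ ⟨x, hx, r, rfl | rfl⟩
    exacts [((on_e minD r).cj hx).tan, ((on_f minD r).cj hx).tan])
  refine a (lie_span (fun r s => ?_) (fun r s => ?_) h)
  · exact Subgroup.mem_subgroupOf.2 (Subgroup.subset_closure ⟨r, s, .inl rfl⟩)
  · exact Subgroup.mem_subgroupOf.2 (Subgroup.subset_closure ⟨r, s, .inr rfl⟩)

theorem piD (s : SD K) (π : Equiv.Perm (Fin 4))
    (h : ∀ a b, s.1.1 a b ≠ 0 → ∀ i, wt a (π i) = wt b i) (i : Fin 4) : π i = i := by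
  have h1 : ∀ j : Fin 3, π j.castSucc = j.castSucc := fun j => by
    obtain ⟨a, e⟩ := col_ne s.1 (1, j, 2)
    refine (by decide +kernel : ∀ (j : Fin 3) a (k : Fin 4), blk a = blk (1, j, 2) →
      (∀ i, wt a i = if i = k then 1 else 0) → k = j.castSucc) j a _
      (by_contra fun x => e (sd_bd s _ _ x)) fun i => ?_
    obtain ⟨i, rfl⟩ := π.surjective i
    rw [h a _ e, (by decide +kernel : ∀ (j : Fin 3) i,
      wt (1, j, 2) i = if i = j.castSucc then 1 else 0) j]
    simp only [π.apply_eq_iff_eq]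
  rcases Fin.eq_castSucc_or_eq_last (π i) with ⟨j, x⟩ | x
  · rw [π.injective (x.trans (h1 j).symm), h1]
  · rcases Fin.eq_castSucc_or_eq_last i with ⟨j, rfl⟩ | y
    · exact h1 j
    · rw [x, y]

/-- twice the inverse of the Cartan matrix -/
def bD : Matrix (Fin 4) (Fin 4) ℤ :=
  of fun r j => if r = 3 ∧ j = 3 then 4 else if r = j ∨ r = 3 ∨ j = 3 then 2 else 1

theorem bD_al : ∀ i j, ∑ r, bD r j * (of al) i r = if j = i then ((2 : ℕ) : ℤ) else 0 := by
  decide +kernel

theorem alD : ∀ i j : Fin 4, (of al) (Equiv.swap 1 3 i) (Equiv.swap 1 3 j) = CartanMatrix.D 4 i j := by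
  intro i j
  fin_cases i <;> fin_cases j <;> decide +kernel

theorem rd0 [IsAlgClosed K] (hc : CL) (hr : REC) (ha : AUT) {D : Chev} (hD : SC D)
    (ε : Fin D.r ≃ Fin 4) (hA : ∀ i j, CartanMatrix.D 4 (ε i) (ε j) = D.A i j) :
    ∃ ψ : D.grp K ≃* SD K, Iso ψ ∧ ∀ (σ : K →+* K) (g : D.grp K),
      (ψ (P011U.fm D σ g)).1.1 = (ψ g).1.1.map σ :=
  rec_gen hc hr ha hD (ε.trans (Equiv.swap 1 3)) (fun i j => (alD _ _).trans (hA i j))
    minD al_self (fun i a => wt_le a i) two_pos bD_al leD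
    (fun s hs r => ⟨tanD ((nl_em r).conj ⟨s, hs⟩).mem, tanD ((nl_fm r).conj ⟨s, hs⟩).mem⟩)
    (fun s hs π _ h => piD ⟨s, hs⟩ π h) fun s hs => cenD ⟨s, hs⟩

theorem rd_of (hc : CL) (hr : REC) (ha : AUT) : RD := fun D hD ⟨ε, h⟩ K _ _ _ =>
  (rd0 hc hr ha hD ε h).imp fun _ a => a.1

theorem isd_of (hc : CL) (hr : REC) (ha : AUT) : ISD := fun D hD ε h K _ _ _ =>
  (rd0 hc hr ha hD ε fun i j => (h i j).symm).imp fun _ a => ⟨a.1.pol, a.1.pol', a.2⟩

end Vale.Agent.P011UR
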