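import Vale.Agent.P011UR.RD
import Vale.Agent.P011LM.Lie

/-!
Recognition of the type `E₆`.
-/

set_option autoImplicit false
set_option linter.all false

namespace Vale.Agent.P011UR

open Matrix Vale.Agent.P011L Vale.Agent.P183CH Vale.Agent.P011U Vale.Agent.P011UH
  Vale.Agent.P011LA Vale.Agent.P011LM Vale.Agent.P011LT

/-- the raising operators -/
def eE (r : Fin 6) : Matrix J J ℤ := of fun a b => if b = ps r a then cs r a else 0

/-- the lowering operators -/
def fE (r : Fin 6) : Matrix J J ℤ := of fun a b => if b = ps r a then cs r (ps r a) else 0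

variable {K : Type} [Field K]

theorem ct_eE (r : Fin 6) : ct K (eE r) = ee r := by
  ext a b
  simp [eE, ee, mono, apply_ite (Int.cast : ℤ → K)]

theorem ct_fE (r : Fin 6) : ct K (fE r) = ff r := by
  ext a b
  simp [fE, ff, mono, apply_ite (Int.cast : ℤ → K)]

theorem minE : Min (of al) eE fE fun r p => w p r where
  ee r := ct_inj (by rw [ct_mul, ct_eE, (ee_nl r).1]; exact (Matrix.map_zero _ Int.cast_zero).symm)
  ff r := ct_inj (by rw [ct_mul, ct_fE, (ff_nl r).1]; exact (Matrix.map_zero _ Int.cast_zero).symm)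
  ef r := ct_inj ((Matrix.map_sub _ Int.cast_sub _ _).trans (by
    rw [ct, diagonal_map Int.cast_zero, ← hh, hh_eq, ← ct_eE, ← ct_fE, ← ct_mul, ← ct_mul]))
  ef' r s h := ct_inj (by rw [ct_mul, ct_mul, ct_eE, ct_fE, ee_cm h])
  he r a b h := congrFun (ee_sh (K := ℚ) r a b (by rw [← ct_eE]; exact Int.cast_ne_zero.2 h))
  hf r a b h := congrFun (ff_sh (K := ℚ) r a b (by rw [← ct_fE]; exact Int.cast_ne_zero.2 h))
  sc := span_top fun r => by
    obtain ⟨l, -, e⟩ := (by decide +kernel : ∀ r : Fin 6, ∃ l ∈ [[(0, 0, 0), (1, 0, 0)],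
      [(0, 0, 0), (0, 1, 0), (1, 0, 0), (1, 0, 0)], [(1, 0, 0), (1, 1, 0), (1, 2, 0)],
      [(1, 0, 0), (1, 1, 0)], [(1, 0, 0)], [(0, 0, 0), (1, 0, 0), (2, 1, 0)]],
        Pi.single r 1 = (l.map w).sum) r
    rw [e]
    exact list_sum_mem fun y hy => (List.mem_map.1 hy).elim fun a x =>
      Submodule.subset_span ⟨a, x.2⟩

theorem leE : gen K eE fE ≤ SE K := (Subgroup.closure_le _).2 (by
  rintro g ⟨r, t, h | h⟩
  · obtain rfl : g = ((ee_nl r).u t).1 := Units.ext (h.trans (congrArg (1 + t • ·) (ct_eE r)))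
    exact Subtype.prop _
  · obtain rfl : g = ((ff_nl r).u t).1 := Units.ext (h.trans (congrArg (1 + t • ·) (ct_fE r)))
    exact Subtype.prop _)

variable [CharZero K]

theorem tanE {Y : Matrix J J K} (h : Y ∈ g0 K) : Y ∈ tan (gen K eE fE) := by
  have a : Submodule.span K {Y | On (gen K eE fE) Y} ≤ tan (gen K eE fE) :=
    Submodule.span_le.2 fun _ h => On.tan h
  refine a (lie (E := (gen K eE fE).subgroupOf (SE K)) (fun r s => ?_) (fun r s => ?_)
    (fun g hg X hX => ?_) (fun r => Submodule.subset_span (ct_eE (K := K) r ▸ on_e minE r))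
    (fun r => Submodule.subset_span (ct_fE (K := K) r ▸ on_f minE r)) h)
  · exact Subgroup.mem_subgroupOf.2 (Subgroup.subset_closure
      ⟨r, s, .inl (congrArg (1 + s • ·) (ct_eE r).symm)⟩)
  · exact Subgroup.mem_subgroupOf.2 (Subgroup.subset_closure
      ⟨r, s, .inr (congrArg (1 + s • ·) (ct_fE r).symm)⟩)
  · exact (Submodule.span_le (p := (Submodule.span K {Y | On (gen K eE fE) Y}).comap (cj g))).2
      (fun Z hZ => Submodule.subset_span (On.cj hZ (Subgroup.mem_subgroupOf.1 hg))) hX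

omit [CharZero K] in
theorem piE (s : GL J K) (π : Equiv.Perm (Fin 6)) (hA : ∀ i j, al (π i) (π j) = al i j)
    (h : ∀ a b, s.1 a b ≠ 0 → ∀ i, w a (π i) = w b i) (i : Fin 6) : π i = i := by
  have h4 : π 4 = 4 := by
    obtain ⟨a, e⟩ := col_ne s top
    refine (by decide +kernel : ∀ a (k : Fin 6), (∀ i, w a i = if i = k then 1 else 0) → k = 4)
      a _ fun i => ?_
    obtain ⟨i, rfl⟩ := π.surjective i
    rw [h a _ e, (by decide +kernel : ∀ i, w top i = if i = 4 then 1 else 0)]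
    simp only [π.apply_eq_iff_eq]
  have k : ∀ i j, π j = j → al (π i) j = al i j := fun i j e => by rw [← hA i j, e]
  have h3 : π 3 = 3 := (by decide +kernel : ∀ a, al a 4 = al 3 4 → a = 3) _ (k _ _ h4)
  have h2 : π 2 = 2 := (by decide +kernel : ∀ a, al a 4 = al 2 4 → al a 3 = al 2 3 → a = 2) _
    (k _ _ h4) (k _ _ h3)
  have h0 : π 0 = 0 := (by decide +kernel : ∀ a, al a 2 = al 0 2 → al a 3 = al 0 3 → a = 0) _
    (k _ _ h2) (k _ _ h3)
  have h1 : π 1 = 1 := (by decide +kernel : ∀ a, al a 0 = al 1 0 → a = 1) _ (k _ _ h0)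
  have h5 : π 5 = 5 := (by decide +kernel : ∀ a, al a 2 = al 5 2 → al a 0 = al 5 0 →
    al a 4 = al 5 4 → a = 5) _ (k _ _ h2) (k _ _ h0) (k _ _ h4)
  fin_cases i <;> assumption

theorem cenE (g : SE K) (he : ∀ r, g.1.1 * ee r = ee r * g.1.1)
    (hf : ∀ r, g.1.1 * ff r = ff r * g.1.1) : ∃ t, g.1.1 = diagonal fun a => ch (w a) t := by
  obtain ⟨k, hk⟩ := schur (fun r => (he r).symm) fun r => (hf r).symm
  have h3 : k ^ 3 = 1 := by
    have := mem_SE.1 g.2 (Pi.single top 1 + Pi.single low 1 + Pi.single mid 1)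
    rw [hk, smul_mulVec, one_mulVec, cub_smul, cub_val] at this
    linear_combination -this
  obtain ⟨ζ, rfl⟩ : ∃ ζ : Kˣ, ζ = k := ⟨.mkOfMulEqOne k (k ^ 2) (by rw [← h3]; ring), rfl⟩
  have h1 : ζ ^ (3 : ℤ) = 1 := Units.ext (by simpa [zpow_ofNat] using h3)
  refine ⟨fun r => ζ ^ bm r 4, ?_⟩
  rw [hk, smul_one_eq_diagonal]
  refine congrArg diagonal (funext fun a => ?_)
  have : ch (w a) (fun r => ζ ^ bm r 4) = (ζ ^ ∑ r, bm r 4 * w a r : Kˣ) := by
    simp [ch, Fin.prod_univ_six, Fin.sum_univ_six, zpow_add₀, _root_.zpow_mul]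
  rw [this, zpow_eq_zpow_emod _ h1,
    (by decide +kernel : ∀ a, (∑ r, bm r 4 * w a r) % 3 = 1), zpow_one]

theorem bm_al : ∀ i j, ∑ r, (of bm) r j * (of al) i r = if j = i then ((3 : ℕ) : ℤ) else 0 := by
  decide +kernel

/-- the renumbering of the nodes -/
def kE : Equiv.Perm (Fin 6) := ⟨![0, 5, 1, 2, 3, 4], ![0, 2, 3, 4, 5, 1], by decide, by decide⟩

theorem alE : ∀ i j : Fin 6, (of al) (kE i) (kE j) = CartanMatrix.E₆ i j := by
  intro i j
  fin_cases i <;> fin_cases j <;> decide +kernel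

theorem re0 [IsAlgClosed K] (hc : CL) (hr : REC) (ha : AUT) {D : Chev} (hD : SC D)
    (ε : Fin D.r ≃ Fin 6) (hA : ∀ i j, CartanMatrix.E₆ (ε i) (ε j) = D.A i j) :
    ∃ ψ : D.grp K ≃* SE K, Iso ψ ∧ ∀ (σ : K →+* K) (g : D.grp K),
      (ψ (P011U.fm D σ g)).1.1 = (ψ g).1.1.map σ :=
  rec_gen hc hr ha hD (ε.trans kE) (fun i j => (alE _ _).trans (hA i j))
    minE al_self (fun i a => ⟨(tab i a).2.2.2.2.1, (tab i a).2.2.2.2.2.1⟩) three_pos bm_al leE
    (fun s hs r => by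
      rw [ct_eE, ct_fE]
      exact ⟨tanE ((ee_nl r).cj ⟨s, hs⟩).g0, tanE ((ff_nl r).cj ⟨s, hs⟩).g0⟩)
    (fun s _ π => piE s π) fun s hs a b =>
      cenE ⟨s, hs⟩ (fun r => ct_eE (K := K) r ▸ a r) fun r => ct_fE (K := K) r ▸ b r

theorem re_of (hc : CL) (hr : REC) (ha : AUT) : RE := fun D hD ⟨ε, h⟩ K _ _ _ =>
  (re0 hc hr ha hD ε h).imp fun _ a => a.1

theorem ise_of (hc : CL) (hr : REC) (ha : AUT) : ISE := fun D hD ε h K _ _ _ =>
  (re0 hc hr ha hD ε fun i j => (h i j).symm).imp fun _ a => ⟨a.1.pol, a.1.pol'⟩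

end Vale.Agent.P011UR
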